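import Vale.Agent.P207.N4.Dim
import Vale.Agent.P207.H248.HorP
import Vale.Agent.P207.N4.H566.Slice

/-!
# P207 / N3 (helper566): the time-one map of the horizontal flows, as a function of the direction
-/

open scoped Manifold ContDiff ENNReal Topology
open Bundle MeasureTheory Set Filter Topology

noncomputable section

set_option maxSynthPendingDepth 3
set_option linter.unusedSectionVars false

namespace Vale.Agent.P207.N4.H566

open Vale.Agent.P207.N3 Vale.Agent.P207.N3.H566

variable [Dim]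

open Vale.Agent.P255 (RMetric coefIn Gam Riem IsGeo Metric Npc ExpSys toMetric geo expg cc trans IsGeodesic coefL chris chrisB IsMetricOn covD)
open Vale.Agent.P207 Vale.Agent.P207.Q Vale.Agent.P207.Q.Fl

variable {n : ℕ} {M : Type} [TopologicalSpace M] [ChartedSpace (EV n) M]
  [IsManifold 𝓘(ℝ, EV n) ∞ M] (g : RMetric (EV n) M)

theorem hF_smul (G : EV n → EV n →L[ℝ] EV n →L[ℝ] ℝ) (t : ℝ) (ξ : Fin n → ℝ) (y : St (Fin n) n) :
    hF G (t • ξ) y = t • hF G ξ y := by
  have h1 : ∑ i, (t • ξ) i • y.2 i = t • ∑ i, ξ i • y.2 i := by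
    rw [Finset.smul_sum]
    exact Finset.sum_congr rfl fun i _ => by rw [Pi.smul_apply, smul_eq_mul, mul_smul]
  refine Prod.ext h1 ?_
  funext j
  change - chris G y.1 (∑ i, (t • ξ) i • y.2 i) (y.2 j) =
    t • - chris G y.1 (∑ i, ξ i • y.2 i) (y.2 j)
  rw [h1, ← P255.chrisB_apply, ← P255.chrisB_apply, map_smul, smul_neg]
  rfl

variable [Nonempty (Fr g)] [NeZero n] [CompactSpace M] [T2Space M]

/-- the time-one map of the horizontal flow of direction `ξ` -/
def hflow (ξ : Fin n → ℝ) (f : Fr g) : Fr g := CSys.flow (horVF g ξ) 1 f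

theorem flow_eq_hflow (ξ : Fin n → ℝ) (t : ℝ) (f : Fr g) :
    CSys.flow (horVF g ξ) t f = hflow g (t • ξ) f := by
  have h0 := isHorFlow_flow g ξ
  have h1 : IsHorFlow g (t • ξ) (fun s f => CSys.flow (horVF g ξ) (s * t) f) := by
    intro f
    refine ⟨by simp only [zero_mul]; exact CSys.flow_zero _ f, ⟨fun s _ => ?_, fun a s _ ha => ?_⟩⟩
    · exact ContinuousAt.comp (g := fun t => (CSys.flow (horVF g ξ) t f).1)
        (f := fun s : ℝ => s * t) ((h0 f).2.cont (s * t) (mem_univ _)) (by fun_prop)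
    · have h2 := (h0 f).2.eqn a (s * t) (mem_univ _) ha
      have h3 : HasDerivAt (fun s : ℝ => s * t) t s := by
        simpa using (hasDerivAt_id s).mul_const t
      have h4 := HasDerivAt.scomp s h2 h3
      rw [hF_smul]
      exact h4
  have h2 := (h1.unique (isHorFlow_flow g (t • ξ)))
  have h3 := congrFun (congrFun h2 1) f
  simp only [one_mul] at h3
  exact h3

theorem hflow_zero (f : Fr g) : hflow g 0 f = f := by
  have h := flow_eq_hflow g (0 : Fin n → ℝ) 0 f
  rw [CSys.flow_zero, zero_smul] at h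
  exact h.symm

theorem isHorFlow_hflow (ξ : Fin n → ℝ) : IsHorFlow g ξ (fun t f => hflow g (t • ξ) f) := by
  have h : (fun t f => hflow g (t • ξ) f) = CSys.flow (horVF g ξ) := by
    funext t f
    exact (flow_eq_hflow g ξ t f).symm
  rw [h]
  exact isHorFlow_flow g ξ

theorem hflow_add (ξ : Fin n → ℝ) (s t : ℝ) (f : Fr g) :
    hflow g ((s + t) • ξ) f = hflow g (s • ξ) (hflow g (t • ξ) f) :=
  (isHorFlow_hflow g ξ).add s t f

theorem hflow_neg (ξ : Fin n → ℝ) (f : Fr g) : hflow g (-ξ) (hflow g ξ f) = f := by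
  have h := hflow_add g ξ (-1) 1 f
  rw [neg_add_cancel, zero_smul, hflow_zero, neg_smul, one_smul] at h
  exact h.symm

/-- equivariance under the right action of the orthogonal group -/
theorem hflow_rot (A : Fr.On n) (ξ : Fin n → ℝ) (f : Fr g) :
    hflow g ξ (Fr.rot A f) = Fr.rot A (hflow g (A.1.mulVec ξ) f) := by
  have h := (isHorFlow_hflow g ξ).rot (isHorFlow_hflow g (A.1.mulVec ξ)) A rfl 1 f
  simpa only [one_smul] using h

/-- the time-one maps are jointly smooth -/
theorem hflow_plot {E : Type} [NormedAddCommGroup E] [NormedSpace ℝ E]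
    [FiniteDimensional ℝ E] {u : E → Fr g} {ξ : E → Fin n → ℝ} {x : E}
    (hu : (frSys g).dif.At u x) (hξ : Sm ξ x) :
    (frSys g).dif.At (fun z => hflow g (ξ z) (u z)) x :=
  H248.hor_plot g hu hξ (Sm.const 1 x)

theorem map_hflow : ((Dif.lin (Fin n → ℝ)).prod (frSys g).dif).Map
    (frSys g).dif (fun q : (Fin n → ℝ) × Fr g => hflow g q.1 q.2) :=
  fun h => hflow_plot g h.2 h.1

theorem sec_frSys : Sec (frSys g).dif := sec_of_hasSec hasSec_frSys

/-- products with a vector space have local sections -/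
theorem sec_prod {X : Type*} [TopologicalSpace X] {D : Dif X} (hD : Sec D) (E : Type)
    [NormedAddCommGroup E] [NormedSpace ℝ E] [FiniteDimensional ℝ E] :
    Sec ((Dif.lin E).prod D) := by
  rintro ⟨e, x⟩
  obtain ⟨V, i1, i2, i3, κ, r, hx⟩ := hD x
  refine ⟨E × V, inferInstance, inferInstance, inferInstance, fun q => (q.1, κ q.2),
    fun q => (q.1, r q.2), ⟨?_, ?_⟩⟩
  · exact ⟨Sm.of_contDiff contDiff_fst _, D.comp (u := r) (g := Prod.snd)
      (x := ((e, κ x) : E × V)) hx.plot (Sm.of_contDiff contDiff_snd _)⟩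
  · have h1 : ∀ᶠ q : E × X in 𝓝 (e, x), ContinuousAt κ q.2 ∧ r (κ q.2) = q.2 :=
      (continuousAt_snd (p := ((e, x) : E × X))).eventually hx.ev
    filter_upwards [h1] with q hq
    refine ⟨continuousAt_fst.prodMk (ContinuousAt.comp (g := κ) hq.1 continuousAt_snd), ?_⟩
    rw [hq.2]

/-- the time-one maps are jointly continuous -/
theorem continuous_hflow :
    Continuous fun q : (Fin n → ℝ) × Fr g => hflow g q.1 q.2 :=
  continuous_of_map (D' := (frSys g).dif) (sec_prod (sec_frSys g) (Fin n → ℝ))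
    (fun h => (frSys g).at_cont h) (map_hflow g)

end Vale.Agent.P207.N4.H566
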