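import Vale.Agent.P207.N4.Dim
import Vale.Agent.P207.N4.H566.Hfl
import Vale.Agent.P207.N3.H465.Cov
import Mathlib.Topology.Homotopy.Lifting

/-!
# P207 / N3 (helper566): the frames of a covering space, and the lifts of the horizontal flows

`XF p g = {(q, f) | p q = pt f}` for a covering `p : A → M`; `lift ξ x` is the end point of the
lift of the horizontal curve `s ↦ hflow (s ξ) f`, `0 ≤ s ≤ 1`.
-/

open scoped Manifold ContDiff ENNReal Topology unitInterval
open Bundle MeasureTheory Set Filter Topology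

noncomputable section

set_option maxSynthPendingDepth 3
set_option linter.unusedSectionVars false

namespace Vale.Agent.P207.N4.H566

open Vale.Agent.P207.N3 Vale.Agent.P207.N3.H566

variable [Dim]

open Vale.Agent.P255 (RMetric coefIn Gam Riem IsGeo Metric Npc ExpSys toMetric geo expg cc trans IsGeodesic coefL chris chrisB IsMetricOn covD)
open Vale.Agent.P207 Vale.Agent.P207.Q Vale.Agent.P207.Q.Fl
open Vale.Agent.P207.N3.H465 (Deck PB)

variable {n : ℕ} {M : Type} [TopologicalSpace M] [ChartedSpace (EV n) M]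
  [IsManifold 𝓘(ℝ, EV n) ∞ M] (g : RMetric (EV n) M) {A : Type} [TopologicalSpace A]
  (p : A → M)

/-- the orthonormal frames of the covering space -/
abbrev XF : Type := PB p (Fr.pt (g := g))

namespace XF

variable {g p}

theorem p_q (x : XF g p) : p x.q = x.f.pt := x.2

theorem continuousAt_of {Y : Type*} [TopologicalSpace Y] {u : Y → XF g p} {y : Y}
    (h1 : ContinuousAt (fun z => (u z).q) y) (h2 : ContinuousAt (fun z => (u z).f) y) :
    ContinuousAt u y :=
  (IsInducing.subtypeVal.continuousAt_iff (f := u)).2 (h1.prodMk h2)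

theorem continuous_of {Y : Type*} [TopologicalSpace Y] {u : Y → XF g p}
    (h1 : Continuous (fun z => (u z).q)) (h2 : Continuous (fun z => (u z).f)) :
    Continuous u :=
  (IsInducing.subtypeVal.continuous_iff (f := u)).2 (h1.prodMk h2)

/-- the right action of the orthogonal group -/
def rot (B : Fr.On n) (x : XF g p) : XF g p := PB.mk x.q (Fr.rot B x.f) x.2

@[simp] theorem q_rot (B : Fr.On n) (x : XF g p) : (rot B x).q = x.q := rfl

@[simp] theorem f_rot (B : Fr.On n) (x : XF g p) : (rot B x).f = Fr.rot B x.f := rfl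

theorem rot_rot (B C : Fr.On n) (x : XF g p) : rot C (rot B x) = rot (B * C) x :=
  PB.ext rfl (Fr.rot_rot B C x.f)

theorem rot_one (x : XF g p) : rot (1 : Fr.On n) x = x :=
  PB.ext rfl (Fr.rot_one x.f)

theorem rot_smul (B : Fr.On n) (γ : Deck p) (x : XF g p) : rot B (γ • x) = γ • rot B x := rfl

theorem continuous_rot [NeZero n] : Continuous (fun q : Fr.On n × XF g p => rot q.1 q.2) := by
  refine continuous_of ?_ ?_
  · change Continuous (fun q : Fr.On n × XF g p => q.2.q)
    exact PB.continuous_q.comp continuous_snd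
  · change Continuous (fun q : Fr.On n × XF g p => Fr.rot q.1 q.2.f)
    exact Fr.continuous_rot.comp (continuous_fst.prodMk (PB.continuous_f.comp continuous_snd))

/-- two frames with the same foot point differ by a rotation -/
theorem exists_rot {x y : XF g p} (h : x.q = y.q) : ∃ B : Fr.On n, rot B x = y := by
  obtain ⟨B, hB⟩ := Fr.exists_rot (f := x.f) (f' := y.f) (by rw [← p_q, ← p_q, h])
  exact ⟨B, PB.ext h hB⟩

/-- if `M` is compact and the foot points are in a compact set, the frames are in a compact set -/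
theorem isCompact_q [CompactSpace M] [T2Space M] [NeZero n] {K : Set A} (hK : IsCompact K)
    (hp : Continuous p) : IsCompact {x : XF g p | x.q ∈ K} := by
  have h2 : IsCompact (K ×ˢ (univ : Set (Fr g))) := hK.prod isCompact_univ
  have h3 : {x : XF g p | x.q ∈ K} = Subtype.val ⁻¹' (K ×ˢ (univ : Set (Fr g))) := by
    ext x
    exact ⟨fun hx => ⟨hx, mem_univ _⟩, fun hx => hx.1⟩
  rw [h3]
  exact (PB.isClosedEmbedding_val hp Fr.continuous_pt).isCompact_preimage h2

end XF

/-! ### The lifts -/

section Lift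

variable {g p} (hp : IsCoveringMap p)
variable [Nonempty (Fr g)] [NeZero n] [CompactSpace M] [T2Space M]

/-- the homotopy which is lifted -/
def ptH (g : RMetric (EV n) M) (p : A → M) [Nonempty (Fr g)] :
    C(I × ((Fin n → ℝ) × XF g p), M) where
  toFun q := (hflow g ((q.1 : ℝ) • q.2.1) q.2.2.f).pt
  continuous_toFun := by
    refine Fr.continuous_pt.comp ((continuous_hflow g).comp (Continuous.prodMk ?_ ?_))
    · exact (continuous_subtype_val.comp continuous_fst).smul (continuous_fst.comp continuous_snd)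
    · exact PB.continuous_f.comp (continuous_snd.comp continuous_snd)

/-- the foot point as a function of the parameters -/
def ftC (g : RMetric (EV n) M) (p : A → M) : C((Fin n → ℝ) × XF g p, A) where
  toFun a := a.2.q
  continuous_toFun := PB.continuous_q.comp continuous_snd

theorem ptH_zero (a : (Fin n → ℝ) × XF g p) : ptH g p (0, a) = p (ftC g p a) := by
  change (hflow g ((0 : ℝ) • a.1) a.2.f).pt = p a.2.q
  rw [zero_smul, hflow_zero]
  exact (PB.e_q a.2).symm

include hp in
theorem lift_aux (ξ : Fin n → ℝ) (x : XF g p) :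
    p (hp.liftHomotopy (ptH g p) (ftC g p) ptH_zero (1, (ξ, x))) = (hflow g ξ x.f).pt := by
  have h := congrFun (hp.liftHomotopy_lifts (ptH g p) (ftC g p) ptH_zero) (1, (ξ, x))
  refine h.trans ?_
  change (hflow g (((1 : I) : ℝ) • ξ) x.f).pt = _
  rw [Set.Icc.coe_one, one_smul]

/-- the lift of the time-one map of the horizontal flow of direction `ξ` -/
@[irreducible] def lift (ξ : Fin n → ℝ) (x : XF g p) : XF g p :=
  PB.mk (hp.liftHomotopy (ptH g p) (ftC g p) ptH_zero (1, (ξ, x))) (hflow g ξ x.f)
    (lift_aux hp ξ x)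

theorem f_lift (ξ : Fin n → ℝ) (x : XF g p) : (lift hp ξ x).f = hflow g ξ x.f := by
  unfold lift
  rfl

theorem q_lift (ξ : Fin n → ℝ) (x : XF g p) : (lift hp ξ x).q =
    hp.liftHomotopy (ptH g p) (ftC g p) ptH_zero (1, (ξ, x)) := by
  unfold lift
  rfl

theorem continuous_lift : Continuous fun q : (Fin n → ℝ) × XF g p => lift hp q.1 q.2 := by
  refine XF.continuous_of ?_ ?_
  · simp only [q_lift]
    exact (hp.liftHomotopy (ptH g p) (ftC g p) ptH_zero).continuous.comp
      (continuous_const.prodMk continuous_id)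
  · simp only [f_lift]
    exact (continuous_hflow g).comp (continuous_fst.prodMk (PB.continuous_f.comp continuous_snd))

/-- uniqueness of the lift -/
theorem lift_unique {ξ : Fin n → ℝ} {x : XF g p} {c : ℝ → A} (hc : Continuous c)
    (h : ∀ s, p (c s) = (hflow g (s • ξ) x.f).pt) (h0 : c 0 = x.q) (t : ℝ) :
    (lift hp (t • ξ) x).q = c t := by
  have h1 := (hp.eq_liftHomotopy_iff (H := ptH g p) (f := ftC g p) ptH_zero
    (hp.liftHomotopy (ptH g p) (ftC g p) ptH_zero)).1 rfl
  have h2 : Continuous fun s : I => hp.liftHomotopy (ptH g p) (ftC g p) ptH_zero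
    (s, (t • ξ, x)) := h1.1 _
  have h3 : Continuous fun s : I => c ((s : ℝ) * t) :=
    hc.comp (continuous_subtype_val.mul continuous_const)
  have h4 := hp.eq_of_comp_eq h2 h3 (by
    funext s
    have h5 := congrFun h1.2.1 (s, (t • ξ, x))
    change p (hp.liftHomotopy (ptH g p) (ftC g p) ptH_zero (s, (t • ξ, x))) = _ at h5
    change p (hp.liftHomotopy (ptH g p) (ftC g p) ptH_zero (s, (t • ξ, x))) = p (c ((s : ℝ) * t))
    rw [h5, h]
    change (hflow g ((s : ℝ) • t • ξ) x.f).pt = _
    rw [smul_smul]) 0 (by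
    have h5 := h1.2.2 (t • ξ, x)
    change hp.liftHomotopy (ptH g p) (ftC g p) ptH_zero (0, (t • ξ, x)) = c (((0 : I) : ℝ) * t)
    rw [h5, Set.Icc.coe_zero, zero_mul, h0]
    rfl)
  have h5 := congrFun h4 1
  change hp.liftHomotopy (ptH g p) (ftC g p) ptH_zero (1, (t • ξ, x)) = c (((1 : I) : ℝ) * t) at h5
  rw [Set.Icc.coe_one, one_mul] at h5
  rw [q_lift]
  exact h5

theorem lift_unique' {ξ : Fin n → ℝ} {x : XF g p} {c : ℝ → XF g p}
    (hc : Continuous fun t => (c t).q) (h : ∀ s, (c s).f = hflow g (s • ξ) x.f)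
    (h0 : (c 0).q = x.q) (t : ℝ) : lift hp (t • ξ) x = c t :=
  PB.ext (lift_unique hp hc (fun s => by rw [← h s]; exact PB.e_q (c s)) h0 t) (by rw [f_lift, h t])

theorem lift_zero (x : XF g p) : lift hp 0 x = x := by
  have h := lift_unique' hp (ξ := 0) (x := x) (c := fun _ => x) continuous_const
    (fun s => by rw [smul_zero, hflow_zero]) rfl 0
  rwa [smul_zero] at h

theorem continuous_lift_smul (ξ : Fin n → ℝ) (x : XF g p) :
    Continuous fun t : ℝ => lift hp (t • ξ) x := by
  have h1 : Continuous fun t : ℝ => ((t • ξ, x) : (Fin n → ℝ) × XF g p) := by fun_prop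
  exact (continuous_lift hp).comp h1

theorem lift_add (ξ : Fin n → ℝ) (s t : ℝ) (x : XF g p) :
    lift hp ((s + t) • ξ) x = lift hp (s • ξ) (lift hp (t • ξ) x) := by
  have h1 : Continuous fun s : ℝ => (lift hp ((s + t) • ξ) x).q := by
    have h2 : Continuous fun s : ℝ => (((s + t) • ξ, x) : (Fin n → ℝ) × XF g p) := by fun_prop
    exact PB.continuous_q.comp ((continuous_lift hp).comp h2)
  have h3 : ∀ s : ℝ, (lift hp ((s + t) • ξ) x).f =
      hflow g (s • ξ) (lift hp (t • ξ) x).f := fun s => by
    rw [f_lift, f_lift, hflow_add]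
  have h4 : (lift hp ((0 + t) • ξ) x).q = (lift hp (t • ξ) x).q := by rw [zero_add]
  exact (lift_unique' hp (x := lift hp (t • ξ) x) (c := fun s => lift hp ((s + t) • ξ) x)
    h1 h3 h4 s).symm

theorem lift_neg (ξ : Fin n → ℝ) (x : XF g p) : lift hp (-ξ) (lift hp ξ x) = x := by
  have h := lift_add hp ξ (-1) 1 x
  rw [neg_add_cancel, zero_smul, lift_zero, neg_smul, one_smul] at h
  exact h.symm

theorem lift_rot (B : Fr.On n) (ξ : Fin n → ℝ) (x : XF g p) :
    lift hp ξ (XF.rot B x) = XF.rot B (lift hp (B.1.mulVec ξ) x) := by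
  have h := lift_unique' hp (ξ := ξ) (x := XF.rot B x)
    (c := fun s => XF.rot B (lift hp (s • B.1.mulVec ξ) x))
    (by
      change Continuous fun s : ℝ => (lift hp (s • B.1.mulVec ξ) x).q
      exact PB.continuous_q.comp (continuous_lift_smul hp (B.1.mulVec ξ) x)) (fun s => by
      rw [XF.f_rot, XF.f_rot, hflow_rot, f_lift, Matrix.mulVec_smul]) (by
      rw [XF.q_rot, XF.q_rot, zero_smul, lift_zero]) 1
  simpa only [one_smul] using h

theorem lift_deck (γ : Deck p) (ξ : Fin n → ℝ) (x : XF g p) :
    lift hp ξ (γ • x) = γ • lift hp ξ x := by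
  have h := lift_unique' hp (ξ := ξ) (x := γ • x)
    (c := fun s => γ • lift hp (s • ξ) x)
    (by
      change Continuous fun s : ℝ => γ • (lift hp (s • ξ) x).q
      exact (Deck.continuous_smul γ).comp
        (PB.continuous_q.comp (continuous_lift_smul hp ξ x))) (fun s => by
      rw [PB.f_smul, PB.f_smul, f_lift]) (by
      rw [PB.q_smul, PB.q_smul, zero_smul, lift_zero]) 1
  simpa only [one_smul] using h

/-- the flow of direction `ξ` -/
theorem lift_smul_smul (ξ : Fin n → ℝ) (s t : ℝ) (x : XF g p) :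
    lift hp (s • ξ) (lift hp (t • ξ) x) = lift hp ((s + t) • ξ) x := (lift_add hp ξ s t x).symm

end Lift

end Vale.Agent.P207.N4.H566
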