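import Vale.Agent.P207.N4.Dim
import Vale.Agent.P207.N4.H566.Lift
import Vale.Agent.P207.N3.H862.JC
import Mathlib.Analysis.Calculus.InverseFunctionTheorem.ContDiff

/-!
# P207 / N3 (helper566): the smooth structure of the frames of a covering space

`A = EV n` and `p : EV n → M` is a smooth local diffeomorphism. `difX`: the plots of `XF g p`;
the lifts of the horizontal flows, the rotations and the deck transformations are smooth along
plots. `Exp hc x u`: the exponential map of the covering space in the frame `x`.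
-/

open scoped Manifold ContDiff ENNReal Topology
open Bundle MeasureTheory Set Filter Topology

noncomputable section

set_option maxSynthPendingDepth 3
set_option linter.unusedSectionVars false

namespace Vale.Agent.P207.N4.H566

open Vale.Agent.P207.N3 Vale.Agent.P207.N3.H566

variable [Dim]

open Vale.Agent.P255 (RMetric coefIn Gam Riem IsGeo Metric Npc ExpSys toMetric geo expg cc trans IsGeodesic coefL chris chrisB IsMetricOn covD)
open Vale.Agent.P207 Vale.Agent.P207.Q Vale.Agent.P207.Q.Fl
open Vale.Agent.P207.N3.H465 (Deck PB)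

section Inv

variable {E V W : Type*} [NormedAddCommGroup V] [NormedSpace ℝ V] [NormedAddCommGroup W]
  [NormedSpace ℝ W] [CompleteSpace V] [NormedAddCommGroup E] [NormedSpace ℝ E]

/-- a continuous map is smooth if its composition with a local diffeomorphism is smooth -/
theorem contDiffAt_of_comp {F : V → W} {u : E → V} {y : E} (hu : ContinuousAt u y)
    (hF : ContDiffAt ℝ ∞ F (u y)) {L : V ≃L[ℝ] W}
    (hL : HasFDerivAt F (L : V →L[ℝ] W) (u y))
    (h : ContDiffAt ℝ ∞ (fun z => F (u z)) y) : ContDiffAt ℝ ∞ u y := by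
  have hn : (∞ : WithTop ℕ∞) ≠ 0 := by simp
  have h1 := hF.to_localInverse hL hn
  have h2 : ContDiffAt ℝ ∞ (fun z => hF.localInverse hL hn (F (u z))) y :=
    ContDiffAt.comp (g := hF.localInverse hL hn) y h1 h
  refine h2.congr_of_eventuallyEq ?_
  have h3 := (hF.hasStrictFDerivAt' hL hn).eventually_left_inverse
  filter_upwards [hu.eventually h3] with z hz
  exact hz.symm

end Inv

variable {n : ℕ} {M : Type} [TopologicalSpace M] [ChartedSpace (EV n) M]

/-- `p` is a smooth local diffeomorphism -/
structure LocDif (p : EV n → M) : Prop where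
  cont : Continuous p
  smooth : ∀ (a : M) (q : EV n), p q ∈ (chartAt (EV n) a).source →
    ContDiffAt ℝ ∞ (fun z => chartAt (EV n) a (p z)) q
  inv : ∀ (a : M) (q : EV n), p q ∈ (chartAt (EV n) a).source →
    ∃ L : EV n ≃L[ℝ] EV n, HasFDerivAt (fun z => chartAt (EV n) a (p z)) (L : EV n →L[ℝ] EV n) q

theorem LocDif.sm {p : EV n → M} (hp : LocDif p) {a : M} {q : EV n}
    (hq : p q ∈ (chartAt (EV n) a).source) : Sm (fun z => chartAt (EV n) a (p z)) q := by
  filter_upwards [hp.cont.continuousAt.eventually ((chartAt (EV n) a).open_source.mem_nhds hq)]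
    with z hz
  exact hp.smooth a z hz

theorem LocDif.sm_of_comp {p : EV n → M} (hp : LocDif p) {E : Type} [NormedAddCommGroup E]
    [NormedSpace ℝ E] {u : E → EV n} {y : E} {a : M} (hu : ∀ᶠ z in 𝓝 y, ContinuousAt u z)
    (ha : p (u y) ∈ (chartAt (EV n) a).source)
    (h : Sm (fun z => chartAt (EV n) a (p (u z))) y) : Sm u y := by
  have h1 : ∀ᶠ z in 𝓝 y, p (u z) ∈ (chartAt (EV n) a).source :=
    (hp.cont.continuousAt.comp hu.self_of_nhds).eventually
      ((chartAt (EV n) a).open_source.mem_nhds ha)
  filter_upwards [hu, h, h1] with z hz1 hz2 hz3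
  obtain ⟨L, hL⟩ := hp.inv a (u z) hz3
  exact contDiffAt_of_comp (F := fun w => chartAt (EV n) a (p w)) hz1 (hp.smooth a (u z) hz3) hL hz2

variable [IsManifold 𝓘(ℝ, EV n) ∞ M] {g : RMetric (EV n) M} {p : EV n → M}

section Dif

variable [Nonempty (Fr g)] [NeZero n]

variable (g p) in
/-- the plots of the frames of the covering space -/
def difX : Dif (XF g p) where
  At u x := Sm (fun y => (u y).q) x ∧ (frSys g).dif.At (fun y => (u y).f) x
  open' h := h.1.eventually.and ((frSys g).dif.open' h.2)
  congr h hv := ⟨h.1.congr (hv.fun_comp PB.q), (frSys g).dif.congr h.2 (hv.fun_comp PB.f)⟩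
  comp {E F} _ _ _ _ _ _ u k x h hg :=
    ⟨h.1.comp hg, (frSys g).dif.comp (u := fun y => (u y).f) (g := k) h.2 hg⟩

theorem difX_cont {E : Type} [NormedAddCommGroup E] [NormedSpace ℝ E] [FiniteDimensional ℝ E]
    {u : E → XF g p} {y : E} (h : (difX g p).At u y) : ContinuousAt u y :=
  XF.continuousAt_of h.1.continuousAt ((frSys g).at_cont h.2)

theorem map_q : (difX g p).Map (Dif.lin (EV n)) (fun x : XF g p => x.q) := fun h => h.1

theorem map_f : (difX g p).Map (frSys g).dif (fun x : XF g p => x.f) := fun h => h.2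

theorem chF_fst (a : M) (f : Fr g) : (chF a f.1).1 = chartAt (EV n) a f.pt := rfl

/-- a plot of frames in the chart at `a` -/
theorem sm_chF {E : Type} [NormedAddCommGroup E] [NormedSpace ℝ E] [FiniteDimensional ℝ E]
    {u : E → Fr g} {y : E} (h : (frSys g).dif.At u y) {a : M}
    (ha : (u y).pt ∈ (chartAt (EV n) a).source) : Sm (fun z => chF a (u z).1) y := by
  have h1 : ∀ᶠ z in 𝓝 y, (u z).pt ∈ (chartAt (EV n) a).source :=
    ((frSys g).at_cont h).eventually
      (((chartAt (EV n) a).open_source.preimage Fr.continuous_pt).mem_nhds ha)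
  filter_upwards [h1, h] with z hz1 hz2
  exact hz2.2 a hz1

/-- the foot points of a plot of frames in the chart at `a` -/
theorem sm_pt {E : Type} [NormedAddCommGroup E] [NormedSpace ℝ E] [FiniteDimensional ℝ E]
    {u : E → Fr g} {y : E} (h : (frSys g).dif.At u y) {a : M}
    (ha : (u y).pt ∈ (chartAt (EV n) a).source) :
    Sm (fun z => chartAt (EV n) a (u z).pt) y := (sm_chF h ha).fst

/-- a map into the frames of the covering is a plot if it is continuous and its frames are -/
theorem difX_of (hp : LocDif p) {E : Type} [NormedAddCommGroup E] [NormedSpace ℝ E]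
    [FiniteDimensional ℝ E] {u : E → XF g p} {y : E}
    (hc : ∀ᶠ z in 𝓝 y, ContinuousAt (fun z => (u z).q) z)
    (hf : (frSys g).dif.At (fun z => (u z).f) y) : (difX g p).At u y := by
  refine ⟨?_, hf⟩
  have ha : (u y).f.pt ∈ (chartAt (EV n) (u y).f.pt).source := mem_chart_source _ _
  have h1 : Sm (fun z => chartAt (EV n) (u y).f.pt (u z).f.pt) y := sm_pt hf ha
  refine hp.sm_of_comp (a := (u y).f.pt) hc ?_ ?_
  · have h2 : p (u y).q = (u y).f.pt := PB.e_q (u y)
    rw [h2]
    exact ha
  · have h2 : (fun z => chartAt (EV n) (u y).f.pt (p (u z).q)) =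
        fun z => chartAt (EV n) (u y).f.pt (u z).f.pt := by
      funext z
      have h3 : p (u z).q = (u z).f.pt := PB.e_q (u z)
      rw [h3]
    rw [h2]
    exact h1

open Classical in
/-- the local section -/
def secX (x₀ : XF g p) (y : EV n × (Fin n → EV n)) : XF g p :=
  if h : p y.1 = (invF g x₀.f.pt (gsSt ((mt g).coef x₀.f.pt)
      (chartAt (EV n) x₀.f.pt (p y.1), y.2))).pt then PB.mk y.1 _ h else x₀

theorem secX_eq (x₀ : XF g p) {y : EV n × (Fin n → EV n)}
    (h : p y.1 = (invF g x₀.f.pt (gsSt ((mt g).coef x₀.f.pt)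
      (chartAt (EV n) x₀.f.pt (p y.1), y.2))).pt) : secX x₀ y = PB.mk y.1 _ h := dif_pos h

theorem pt_invF (a : M) {m : M} {v : Fin n → EV n} (hm : m ∈ (chartAt (EV n) a).source)
    (h : (chartAt (EV n) a m, v) ∈ gsDom ((mt g).coef a) (chartAt (EV n) a).target) :
    (invF g a (gsSt ((mt g).coef a) (chartAt (EV n) a m, v))).pt = m := by
  have ho := orth_gsSt ((mt g).isMetricOn a) h
  have h1 := chF_invF g a (gsSt ((mt g).coef a) (chartAt (EV n) a m, v)) h.1 ho
  have h2 := invF_pt g a (gsSt ((mt g).coef a) (chartAt (EV n) a m, v)) h.1 ho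
  have h3 := congrArg Prod.fst h1
  rw [chF_fst] at h3
  exact (chartAt (EV n) a).injOn h2 hm h3

theorem sec_difX (hp : LocDif p) : Sec (difX g p) := by
  intro x₀
  set a : M := x₀.f.pt with ha
  have hx₀ : p x₀.q = a := PB.e_q x₀
  have ha0 : x₀.f.pt ∈ (chartAt (EV n) a).source := mem_chart_source _ _
  refine ⟨EV n × (Fin n → EV n), inferInstance, inferInstance, inferInstance,
    fun x => (x.q, (chF a x.f.1).2), secX x₀, ?_, ?_⟩
  · set y₀ : EV n × (Fin n → EV n) := (x₀.q, (chF a x₀.f.1).2) with hy₀
    have hg0 : (chartAt (EV n) a (p y₀.1), y₀.2) ∈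
        gsDom ((mt g).coef a) (chartAt (EV n) a).target := by
      have h1 : (chartAt (EV n) a (p y₀.1), y₀.2) = chF a x₀.f.1 := by
        refine Prod.ext ?_ rfl
        rw [chF_fst]
        change chartAt (EV n) a (p x₀.q) = _
        rw [hx₀]
      rw [h1]
      exact mem_gsDom_chF a x₀.f ha0
    have hp0 : p y₀.1 ∈ (chartAt (EV n) a).source := by
      change p x₀.q ∈ _
      rw [hx₀]
      exact mem_chart_source _ _
    have hsm : Sm (fun y : EV n × (Fin n → EV n) => (chartAt (EV n) a (p y.1), y.2)) y₀ := by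
      refine Sm.prodMk ?_ (Sm.of_contDiff contDiff_snd _)
      exact Sm.comp (f := fun z => chartAt (EV n) a (p z)) (g := Prod.fst) (hp.sm hp0)
        (Sm.of_contDiff contDiff_fst _)
    have hev : ∀ᶠ y in 𝓝 y₀, p y.1 = (invF g a (gsSt ((mt g).coef a)
        (chartAt (EV n) a (p y.1), y.2))).pt := by
      have h1 : ∀ᶠ y in 𝓝 y₀, (chartAt (EV n) a (p y.1), y.2) ∈
          gsDom ((mt g).coef a) (chartAt (EV n) a).target :=
        hsm.continuousAt.eventually ((isOpen_gsDom ((mt g).isMetricOn a)).mem_nhds hg0)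
      have h2 : ∀ᶠ y in 𝓝 y₀, p y.1 ∈ (chartAt (EV n) a).source :=
        (hp.cont.comp continuous_fst).continuousAt.eventually
          ((chartAt (EV n) a).open_source.mem_nhds hp0)
      filter_upwards [h1, h2] with y hy1 hy2
      exact (pt_invF a hy2 hy1).symm
    refine ⟨?_, ?_⟩
    · refine (Sm.of_contDiff contDiff_fst y₀).congr ?_
      filter_upwards [hev] with y hy
      rw [secX_eq x₀ hy]
      rfl
    · have h1 : (frSys g).dif.At (fun y : EV n × (Fin n → EV n) =>
          invF g a (gsSt ((mt g).coef a) (chartAt (EV n) a (p y.1), y.2))) y₀ :=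
        (frSys g).dif.comp (u := fun z => invF g a (gsSt ((mt g).coef a) z))
          (g := fun y : EV n × (Fin n → EV n) => (chartAt (EV n) a (p y.1), y.2))
          (at_retr a hg0) hsm
      refine (frSys g).dif.congr h1 ?_
      filter_upwards [hev] with y hy
      rw [secX_eq x₀ hy]
      rfl
  · have h1 : ∀ᶠ x : XF g p in 𝓝 x₀, x.f.pt ∈ (chartAt (EV n) a).source :=
      (Fr.continuous_pt.comp PB.continuous_f).continuousAt.eventually
        ((chartAt (EV n) a).open_source.mem_nhds ha0)
    filter_upwards [h1] with x hx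
    have hpx : p x.q = x.f.pt := PB.e_q x
    refine ⟨?_, ?_⟩
    · have h2 : ContinuousAt (fun x : XF g p => chF a x.f.1) x :=
        ContinuousAt.comp (g := fun f : Fr g => chF a f.1) (f := fun x : XF g p => x.f)
          ((frSys g).contAt_c (i := a) hx) PB.continuous_f.continuousAt
      exact PB.continuous_q.continuousAt.prodMk h2.snd
    · have h3 : (chartAt (EV n) a (p x.q), (chF a x.f.1).2) = chF a x.f.1 := by
        refine Prod.ext ?_ rfl
        rw [chF_fst, hpx]
      have h4 : invF g a (gsSt ((mt g).coef a)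
          (chartAt (EV n) a (p x.q), (chF a x.f.1).2)) = x.f := by
        rw [h3]
        exact retr_chF a x.f hx
      have h5 : p ((x.q, (chF a x.f.1).2) : EV n × (Fin n → EV n)).1 =
          (invF g x₀.f.pt (gsSt ((mt g).coef x₀.f.pt)
          (chartAt (EV n) x₀.f.pt (p ((x.q, (chF a x.f.1).2) : EV n × (Fin n → EV n)).1),
          ((x.q, (chF a x.f.1).2) : EV n × (Fin n → EV n)).2))).pt := by
        change p x.q = (invF g a (gsSt ((mt g).coef a)
          (chartAt (EV n) a (p x.q), (chF a x.f.1).2))).pt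
        rw [h4]
        exact hpx
      rw [secX_eq x₀ h5]
      exact PB.ext rfl h4

end Dif

/-! ### the maps of the covering space -/

section Maps

variable [Nonempty (Fr g)] [NeZero n] [CompactSpace M] [T2Space M]

/-- the lifts are plot-smooth -/
theorem lift_plot (hp : LocDif p) (hc : IsCoveringMap p) {E : Type} [NormedAddCommGroup E]
    [NormedSpace ℝ E] [FiniteDimensional ℝ E] {u : E → XF g p} {ξ : E → Fin n → ℝ} {y : E}
    (hu : (difX g p).At u y) (hξ : Sm ξ y) :
    (difX g p).At (fun z => lift hc (ξ z) (u z)) y := by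
  refine difX_of hp ?_ ?_
  · filter_upwards [(difX g p).open' hu, hξ.eventually] with z hz1 hz2
    have h1 : ContinuousAt (fun z => (ξ z, u z)) z := hz2.continuousAt.prodMk (difX_cont hz1)
    exact ContinuousAt.comp (g := fun q : (Fin n → ℝ) × XF g p => (lift hc q.1 q.2).q)
      (PB.continuous_q.comp (continuous_lift hc)).continuousAt h1
  · simp only [f_lift]
    exact hflow_plot g hu.2 hξ

theorem map_lift (hp : LocDif p) (hc : IsCoveringMap p) :
    ((Dif.lin (Fin n → ℝ)).prod (difX g p)).Map (difX g p)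
      (fun q : (Fin n → ℝ) × XF g p => lift hc q.1 q.2) :=
  fun h => lift_plot hp hc h.2 h.1

theorem map_lift_right (hp : LocDif p) (hc : IsCoveringMap p) (ξ : Fin n → ℝ) :
    (difX g p).Map (difX g p) (fun x : XF g p => lift hc ξ x) :=
  fun h => lift_plot hp hc h (Sm.const ξ _)

end Maps

section Maps2

variable [Nonempty (Fr g)] [NeZero n]

/-- the rotations with parameters are plot-smooth -/
theorem rot_plot {E : Type} [NormedAddCommGroup E] [NormedSpace ℝ E] [FiniteDimensional ℝ E]
    {u : E → XF g p} {B : E → Fr.On n} {y : E} (hu : (difX g p).At u y)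
    (hB : ∀ i j, Sm (fun z => (B z).1 i j) y) : (difX g p).At (fun z => XF.rot (B z) (u z)) y := by
  refine ⟨hu.1, ?_⟩
  have hm : ((frSys g).dif.At (fun z => Fr.rot (B z) (u z).f) y) := by
    -- through the parametrised version
    have h1 : ∀ᶠ z in 𝓝 y, ∀ i j, ContDiffAt ℝ ∞ (fun z => (B z).1 i j) z :=
      eventually_all.2 fun i => eventually_all.2 fun j => hB i j
    refine (frSys g).at_of ?_
    filter_upwards [h1, hu.2] with z hz1 hz2
    have hAc : ContinuousAt (fun z => B z) z := by
      refine IsInducing.subtypeVal.continuousAt_iff.2 ?_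
      exact continuousAt_pi.2 fun i => continuousAt_pi.2 fun j => (hz1 i j).continuousAt
    refine ⟨ContinuousAt.comp (g := fun q : Fr.On n × Fr g => Fr.rot q.1 q.2)
      (f := fun z => (B z, (u z).f)) Fr.continuous_rot.continuousAt (hAc.prodMk hz2.1),
      (u z).f.pt, ?_, ?_⟩
    · exact mem_chart_source (EV n) (u z).f.pt
    · have h4 : ContDiffAt ℝ ∞ (fun w => chF (u z).f.pt (u w).f.1) z :=
        hz2.2 (u z).f.pt (mem_chart_source (EV n) (u z).f.pt)
      have h5 : ∀ w, (frSys g).c (u z).f.pt (Fr.rot (B w) (u w).f) =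
          ((chF (u z).f.pt (u w).f.1).1,
            fun j => ∑ i, (B w).1 i j • (chF (u z).f.pt (u w).f.1).2 i) := fun w =>
        chF_mulR (u z).f.pt (B w).1 (u w).f.1
      change ContDiffAt ℝ ∞ (fun w => (frSys g).c (u z).f.pt (Fr.rot (B w) (u w).f)) z
      rw [funext h5]
      refine h4.fst.prodMk ?_
      rw [contDiffAt_pi]
      intro j
      refine ContDiffAt.sum fun i _ => ?_
      exact (hz1 i j).smul (contDiffAt_pi.1 h4.snd i)
  exact hm

theorem map_rotX (B : Fr.On n) : (difX g p).Map (difX g p) (fun x : XF g p => XF.rot B x) :=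
  fun h => rot_plot h fun _ _ => Sm.const _ _

/-- the deck transformations are smooth -/
theorem deck_plot (hp : LocDif p) (γ : Deck p) {E : Type} [NormedAddCommGroup E]
    [NormedSpace ℝ E] [FiniteDimensional ℝ E] {u : E → XF g p} {y : E}
    (hu : (difX g p).At u y) : (difX g p).At (fun z => γ • u z) y := by
  refine difX_of hp ?_ ?_
  · filter_upwards [(difX g p).open' hu] with z hz
    exact ContinuousAt.comp (g := fun x : XF g p => (γ • x).q)
      (PB.continuous_q.comp (PB.continuous_smul γ)).continuousAt (difX_cont hz)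
  · exact hu.2

theorem map_deck (hp : LocDif p) (γ : Deck p) :
    (difX g p).Map (difX g p) (fun x : XF g p => γ • x) := fun h => deck_plot hp γ h

end Maps2

/-- the deck transformations are smooth -/
theorem contDiff_deck (hp : LocDif p) (γ : Deck p) : ContDiff ℝ ∞ (fun q : EV n => γ • q) := by
  rw [contDiff_iff_contDiffAt]
  intro q
  have ha : p q ∈ (chartAt (EV n) (p q)).source := mem_chart_source _ _
  have h1 : Sm (fun q : EV n => γ • q) q := by
    refine hp.sm_of_comp (a := p q) ?_ ?_ ?_
    · exact Eventually.of_forall fun z => (Deck.continuous_smul γ).continuousAt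
    · have h2 : p (γ • q) = p q := γ.2 q
      rw [h2]
      exact ha
    · have h2 : (fun z => chartAt (EV n) (p q) (p (γ • z))) =
          fun z => chartAt (EV n) (p q) (p z) := by
        funext z
        have h3 : p (γ • z) = p z := γ.2 z
        rw [h3]
      rw [h2]
      exact hp.sm ha
  exact h1.contDiffAt

/-! ### the exponential maps -/

section Exp

variable [Nonempty (Fr g)] [NeZero n] [CompactSpace M] [T2Space M]

/-- the exponential map of the covering space in the frame `x` -/
def Exp (hc : IsCoveringMap p) (x : XF g p) (u : EV n) : EV n := (lift hc (fun i => u i) x).q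

theorem Exp_zero (hc : IsCoveringMap p) (x : XF g p) : Exp hc x 0 = x.q := by
  have h : (fun i => (0 : EV n) i) = (0 : Fin n → ℝ) := rfl
  rw [Exp, h, lift_zero]

theorem sm_coord {E : Type} [NormedAddCommGroup E] [NormedSpace ℝ E] {v : E → EV n} {y : E}
    (hv : Sm v y) : Sm (fun z => (fun i => v z i : Fin n → ℝ)) y := by
  have h1 : ContDiff ℝ ∞ (fun w : EV n => (fun i => w i : Fin n → ℝ)) := by
    rw [contDiff_pi]
    intro i
    exact (EuclideanSpace.proj i : EV n →L[ℝ] ℝ).contDiff
  exact Sm.comp (f := fun w : EV n => (fun i => w i : Fin n → ℝ)) (g := v)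
    (Sm.of_contDiff h1 _) hv

theorem smOn_Exp (hp : LocDif p) (hc : IsCoveringMap p) :
    SmOn (difX g p) (fun x u => Exp hc x u) univ :=
  fun hu hv _ => (lift_plot hp hc hu (sm_coord hv)).1

theorem continuous_Exp (hc : IsCoveringMap p) :
    Continuous fun q : XF g p × EV n => Exp hc q.1 q.2 := by
  have h1 : Continuous fun q : XF g p × EV n =>
      (((fun i => q.2 i), q.1) : (Fin n → ℝ) × XF g p) := by
    refine Continuous.prodMk ?_ continuous_fst
    exact continuous_pi fun i => (EuclideanSpace.proj i : EV n →L[ℝ] ℝ).continuous.comp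
      continuous_snd
  exact PB.continuous_q.comp ((continuous_lift hc).comp h1)

theorem Exp_deck (hc : IsCoveringMap p) (γ : Deck p) (x : XF g p) (u : EV n) :
    Exp hc (γ • x) u = γ • Exp hc x u := by
  rw [Exp, lift_deck, PB.q_smul, Exp]

end Exp

/-- functions which are smooth along plots are families with jointly continuous derivatives -/
theorem SmOn.jc {X : Type*} [TopologicalSpace X] {D : Dif X} {E W : Type} [NormedAddCommGroup E]
    [NormedSpace ℝ E] [FiniteDimensional ℝ E] [NormedAddCommGroup W] [NormedSpace ℝ W]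
    {F : X → E → W} {S : Set (X × E)} (hD : Sec D) (hF : SmOn D F S) (hS : IsOpen S) : JC F S :=
  ⟨hS, fun x => hF.contDiffOn hD x, fun k => hF.continuousOn hD k⟩

/-- **the exponential maps: jointly continuous derivatives** -/
theorem jc_Exp [Nonempty (Fr g)] [NeZero n] [CompactSpace M] [T2Space M] (hp : LocDif p)
    (hc : IsCoveringMap p) : JC (fun (x : XF g p) u => Exp hc x u) univ :=
  SmOn.jc (D := difX g p) (sec_difX hp) (smOn_Exp hp hc) isOpen_univ

end Vale.Agent.P207.N4.H566
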