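import Vale.Agent.P207.N4.Dim
import Vale.Agent.P207.N4.H566.ExpD

/-!
# P207 / N3 (helper566): the frames in the coordinates of the covering space

`EX h m x`: the linear map of the frame `x` in the coordinates of `EV n`, i.e. the derivative of
the exponential map at `0`; the plots of `XM h m` are the maps for which the foot point and `EX`
are smooth. `gf`: the geodesic flow in the coordinates of the covering space, `gv` its velocity.
-/

open scoped Manifold ContDiff ENNReal Topology
open Bundle MeasureTheory Set Filter Topology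

noncomputable section

set_option maxSynthPendingDepth 3
set_option linter.unusedSectionVars false

namespace Vale.Agent.P207.N4.H566

open Vale.Agent.P207.N3 Vale.Agent.P207.N3.H566

variable [Dim]

open Vale.Agent.P255 (RMetric coefIn Gam Riem IsGeo Metric Npc ExpSys toMetric geo expg cc trans IsGeodesic coefL chris chrisB IsMetricOn covD)
open Vale.Agent.P207 Vale.Agent.P207.Q Vale.Agent.P207.Q.Fl
open Vale.Agent.P207.N3.H465 (Deck PB ex lg dd)
open Vale.Agent.P207.Q.H892 (Lf Lf_apply inner_Lf exists_frame)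

/-! ### derivatives of functions which are smooth along plots -/

section Der

variable {X : Type*} {D : Dif X} {E W : Type} [NormedAddCommGroup E]
  [NormedSpace ℝ E] [FiniteDimensional ℝ E] [NormedAddCommGroup W] [NormedSpace ℝ W]
  {F : X → E → W} {S : Set (X × E)}

theorem SmOn.sm2 (hF : SmOn D F S) {E' : Type} [NormedAddCommGroup E'] [NormedSpace ℝ E']
    [FiniteDimensional ℝ E'] {u : E' → X} {y : E'} (hu : D.At u y) {w : E}
    (h : (u y, w) ∈ S) : Sm (fun q : E' × E => F (u q.1) q.2) (y, w) := by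
  have h1 : D.At (fun q : E' × E => u q.1) (y, w) :=
    D.comp (u := u) (g := Prod.fst) (x := ((y, w) : E' × E)) hu (Sm.of_contDiff contDiff_fst _)
  have h2 : Sm (fun q : E' × E => q.2) (y, w) := Sm.of_contDiff contDiff_snd _
  exact hF h1 h2 h

theorem SmOn.fderiv_plot (hF : SmOn D F S) {E' : Type} [NormedAddCommGroup E'] [NormedSpace ℝ E']
    [FiniteDimensional ℝ E'] {u : E' → X} {y : E'} (hu : D.At u y) {v : E' → E} (hv : Sm v y)
    (h : (u y, v y) ∈ S) : Sm (fun z => fderiv ℝ (F (u z)) (v z)) y := by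
  have h1 := SmOn.sm2 hF hu h
  have h2 : ∀ᶠ q in 𝓝 (y, v y), fderiv ℝ (F (u q.1)) q.2 =
      (fderiv ℝ (fun q : E' × E => F (u q.1) q.2) q).comp
        (ContinuousLinearMap.inr ℝ E' E) := by
    filter_upwards [h1.eventually] with q hq
    have h3 : HasFDerivAt (fun v : E => (q.1, v)) (ContinuousLinearMap.inr ℝ E' E) q.2 :=
      hasFDerivAt_prodMk_right q.1 q.2
    exact (HasFDerivAt.comp (g := fun q : E' × E => F (u q.1) q.2) q.2
      hq.differentiableAt.hasFDerivAt h3).fderiv
  have h4 : Sm (fun q : E' × E => (fderiv ℝ (fun q : E' × E => F (u q.1) q.2) q).comp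
      (ContinuousLinearMap.inr ℝ E' E)) (y, v y) := by
    have h5 := h1.fderiv
    have h6 : ContDiff ℝ ∞ (fun A : (E' × E) →L[ℝ] W =>
        A.comp (ContinuousLinearMap.inr ℝ E' E)) := by
      exact ((ContinuousLinearMap.compL ℝ E (E' × E) W).flip
        (ContinuousLinearMap.inr ℝ E' E)).contDiff
    exact Sm.comp (f := fun A : (E' × E) →L[ℝ] W => A.comp (ContinuousLinearMap.inr ℝ E' E))
      (Sm.of_contDiff h6 _) h5
  have h7 : Sm (fun q : E' × E => fderiv ℝ (F (u q.1)) q.2) (y, v y) := by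
    refine h4.congr ?_
    filter_upwards [h2] with q hq using hq.symm
  exact Sm.comp (f := fun q : E' × E => fderiv ℝ (F (u q.1)) q.2) (g := fun z => (z, v z)) h7
    ((Sm.id' y).prodMk hv)

theorem SmOn.fderiv (hF : SmOn D F S) : SmOn D (fun x => fderiv ℝ (F x)) S :=
  fun hu hv h => SmOn.fderiv_plot hF hu hv h

end Der

variable {n : ℕ} {M : Type} [TopologicalSpace M] [ChartedSpace (EV n) M]
  [IsManifold 𝓘(ℝ, EV n) ∞ M] {g : RMetric (EV n) M}
  [Nonempty (Fr g)] [NeZero n]

/-! ### local sections of the bundle of frames -/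

section SecQ

variable {p : EV n → M}

theorem secX_ev (hp : LocDif p) (x₀ : XF g p) :
    ∀ᶠ y : EV n × (Fin n → EV n) in 𝓝 (x₀.q, (chF x₀.f.pt x₀.f.1).2),
      p y.1 = (invF g x₀.f.pt (gsSt ((mt g).coef x₀.f.pt)
        (chartAt (EV n) x₀.f.pt (p y.1), y.2))).pt := by
  set a : M := x₀.f.pt with ha
  have hx₀ : p x₀.q = a := PB.e_q x₀
  have ha0 : x₀.f.pt ∈ (chartAt (EV n) a).source := mem_chart_source _ _
  set y₀ : EV n × (Fin n → EV n) := (x₀.q, (chF a x₀.f.1).2) with hy₀
  have hg0 : (chartAt (EV n) a (p y₀.1), y₀.2) ∈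
      gsDom ((mt g).coef a) (chartAt (EV n) a).target := by
    have h1 : (chartAt (EV n) a (p y₀.1), y₀.2) = chF a x₀.f.1 := by
      refine Prod.ext ?_ rfl
      rw [chF_fst]
      change chartAt (EV n) a (p x₀.q) = _
      rw [hx₀]
    rw [h1]
    exact mem_gsDom_chF a x₀.f ha0
  have hp0 : p y₀.1 ∈ (chartAt (EV n) a).source := by
    change p x₀.q ∈ _
    rw [hx₀]
    exact mem_chart_source _ _
  have hsm : ContinuousAt (fun y : EV n × (Fin n → EV n) =>
      (chartAt (EV n) a (p y.1), y.2)) y₀ := by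
    refine ContinuousAt.prodMk ?_ continuousAt_snd
    exact ContinuousAt.comp (g := fun z => chartAt (EV n) a (p z)) (f := Prod.fst)
      (hp.sm hp0).continuousAt continuousAt_fst
  have h1 : ∀ᶠ y in 𝓝 y₀, (chartAt (EV n) a (p y.1), y.2) ∈
      gsDom ((mt g).coef a) (chartAt (EV n) a).target :=
    hsm.eventually ((isOpen_gsDom ((mt g).isMetricOn a)).mem_nhds hg0)
  have h2 : ∀ᶠ y in 𝓝 y₀, p y.1 ∈ (chartAt (EV n) a).source :=
    (hp.cont.comp continuous_fst).continuousAt.eventually
      ((chartAt (EV n) a).open_source.mem_nhds hp0)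
  filter_upwards [h1, h2] with y hy1 hy2
  exact (pt_invF a hy2 hy1).symm

/-- a smooth local frame through `x₀` -/
theorem exists_secq (hp : LocDif p) (x₀ : XF g p) : ∃ σ : EV n → XF g p,
    (difX g p).At σ x₀.q ∧ σ x₀.q = x₀ ∧ ∀ᶠ q in 𝓝 x₀.q, (σ q).q = q := by
  set a : M := x₀.f.pt with ha
  have hx₀ : p x₀.q = a := PB.e_q x₀
  have ha0 : x₀.f.pt ∈ (chartAt (EV n) a).source := mem_chart_source _ _
  have hp0 : p x₀.q ∈ (chartAt (EV n) a).source := by
    rw [hx₀]
    exact mem_chart_source _ _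
  set w := (chF a x₀.f.1).2 with hw
  have hcont : ContinuousAt (fun q : EV n => (q, w)) x₀.q := by fun_prop
  have hev : ∀ᶠ q in 𝓝 x₀.q, p q = (invF g a (gsSt ((mt g).coef a)
      (chartAt (EV n) a (p q), w))).pt := hcont.eventually (secX_ev hp x₀)
  have hg0 : (chartAt (EV n) a (p x₀.q), w) ∈
      gsDom ((mt g).coef a) (chartAt (EV n) a).target := by
    have h1 : (chartAt (EV n) a (p x₀.q), w) = chF a x₀.f.1 := by
      refine Prod.ext ?_ rfl
      rw [chF_fst, hx₀]
    rw [h1]
    exact mem_gsDom_chF a x₀.f ha0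
  refine ⟨fun q => secX x₀ (q, w), ⟨?_, ?_⟩, ?_, ?_⟩
  · refine (Sm.id' x₀.q).congr ?_
    filter_upwards [hev] with q hq
    rw [secX_eq x₀ (y := (q, w)) hq]
    rfl
  · have h1 : (frSys g).dif.At (fun q : EV n =>
        invF g a (gsSt ((mt g).coef a) (chartAt (EV n) a (p q), w))) x₀.q :=
      (frSys g).dif.comp (u := fun z => invF g a (gsSt ((mt g).coef a) z))
        (g := fun q : EV n => (chartAt (EV n) a (p q), w))
        (at_retr a hg0) ((hp.sm hp0).prodMk (Sm.const _ _))
    refine (frSys g).dif.congr h1 ?_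
    filter_upwards [hev] with q hq
    rw [secX_eq x₀ (y := (q, w)) hq]
    rfl
  · have h5 := hev.self_of_nhds
    refine (secX_eq x₀ (y := (x₀.q, w)) h5).trans ?_
    have h3 : (chartAt (EV n) a (p x₀.q), w) = chF a x₀.f.1 := by
      refine Prod.ext ?_ rfl
      rw [chF_fst, hx₀]
    have h4 : invF g a (gsSt ((mt g).coef a) (chartAt (EV n) a (p x₀.q), w)) = x₀.f := by
      rw [h3]
      exact retr_chF a x₀.f ha0
    exact PB.ext rfl h4
  · filter_upwards [hev] with q hq
    rw [secX_eq x₀ (y := (q, w)) hq]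
    rfl

end SecQ

variable [CompactSpace M] [T2Space M] (h : Npc (mt g)) (m : M)

/-- the linear map of the frame `x` in the coordinates of the covering space -/
def EX (x : XM h m) : EV n →L[ℝ] EV n := fderiv ℝ (Exp ((sys g h).cov m) x) 0

theorem hasFDerivAt_EX (x : XM h m) :
    HasFDerivAt (Exp ((sys g h).cov m) x) (EX h m x) 0 :=
  ((contDiff_Exp h m x).differentiable (by simp) 0).hasFDerivAt

/-- the linear map of the frame, as an equivalence -/
def EXe (x : XM h m) : EV n ≃L[ℝ] EV n := (Exp_equiv h m x 0).choose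

theorem coe_EXe (x : XM h m) : (EXe h m x : EV n →L[ℝ] EV n) = EX h m x :=
  (Exp_equiv h m x 0).choose_spec.unique (hasFDerivAt_EX h m x)

theorem EXe_apply (x : XM h m) (c : EV n) : EXe h m x c = EX h m x c :=
  congrArg (fun A : EV n →L[ℝ] EV n => A c) (coe_EXe h m x)

theorem EX_injective (x : XM h m) : Function.Injective (EX h m x) := by
  intro a b hab
  rw [← EXe_apply, ← EXe_apply] at hab
  exact (EXe h m x).injective hab

theorem EX_surjective (x : XM h m) : Function.Surjective (EX h m x) := by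
  intro b
  exact ⟨(EXe h m x).symm b, by rw [← EXe_apply, ContinuousLinearEquiv.apply_symm_apply]⟩

theorem hasDerivAt_Exp_smul (x : XM h m) (c : EV n) :
    HasDerivAt (fun t : ℝ => Exp ((sys g h).cov m) x (t • c)) (EX h m x c) 0 := by
  have h1 : HasDerivAt (fun t : ℝ => t • c) c 0 := by
    simpa using (hasDerivAt_id (0 : ℝ)).smul_const c
  have h2 : HasFDerivAt (Exp ((sys g h).cov m) x) (EX h m x) ((0 : ℝ) • c) := by
    rw [zero_smul]
    exact hasFDerivAt_EX h m x
  exact h2.comp_hasDerivAt (0 : ℝ) h1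

/-- the coordinates of a vector -/
theorem coe_smul (t : ℝ) (c : EV n) : (fun i => (t • c) i : Fin n → ℝ) = t • fun i => c i := rfl

/-- the foot point of the lift of a horizontal curve -/
theorem hasDerivAt_lift (x : XM h m) (c : EV n) (t : ℝ) :
    HasDerivAt (fun t : ℝ => (lift ((sys g h).cov m) (t • fun i => c i) x).q)
      (EX h m (lift ((sys g h).cov m) (t • fun i => c i) x) c) t := by
  set y := lift ((sys g h).cov m) (t • fun i => c i) x with hy
  have h1 := hasDerivAt_Exp_smul h m y c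
  have h2 : (fun s : ℝ => (lift ((sys g h).cov m) (s • fun i => c i) x).q) =
      fun s : ℝ => Exp ((sys g h).cov m) y ((s - t) • c) := by
    funext s
    rw [Exp, coe_smul, hy, ← lift_add, sub_add_cancel]
  rw [h2]
  have h4 : HasDerivAt (fun t : ℝ => Exp ((sys g h).cov m) y (t • c)) (EX h m y c) (t - t) := by
    rw [sub_self]
    exact h1
  exact HasDerivAt.comp_sub_const t t h4

/-- the linear map of the frame in the charts of the manifold -/
theorem EX_chart (x : XM h m) (c : EV n) {a : M}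
    (ha : (sys g h).e m x.q ∈ (chartAt (EV n) a).source) :
    fderiv ℝ (fun z => chartAt (EV n) a ((sys g h).e m z)) x.q (EX h m x c) =
      ∑ i, c i • (chF a x.f.1).2 i := by
  have hpx : (sys g h).e m x.q = x.f.pt := PB.e_q x
  have h1 := hasDerivAt_Exp_smul h m x c
  have h2 : DifferentiableAt ℝ (fun z => chartAt (EV n) a ((sys g h).e m z))
      (Exp ((sys g h).cov m) x ((0 : ℝ) • c)) := by
    rw [zero_smul, Exp_zero]
    exact ((locDif_e h m).smooth a x.q ha).differentiableAt (by simp)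
  have h3 := h2.hasFDerivAt.comp_hasDerivAt (0 : ℝ) h1
  rw [zero_smul, Exp_zero] at h3
  have h4 : (fun t : ℝ => chartAt (EV n) a ((sys g h).e m
      (Exp ((sys g h).cov m) x (t • c)))) =
      fun t : ℝ => (chF a (hflow g (t • fun i => c i) x.f).1).1 := by
    funext t
    have h5 := PB.e_q (lift ((sys g h).cov m) (fun i => (t • c) i) x)
    rw [f_lift] at h5
    rw [chF_fst]
    exact congrArg (chartAt (EV n) a) h5
  have h6 : HasDerivAt (fun t : ℝ => (chF a (hflow g (t • fun i => c i) x.f).1).1)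
      (∑ i, c i • (chF a x.f.1).2 i) 0 := by
    have h7 := ((isHorFlow_hflow g (fun i => c i)) x.f).2.eqn a 0 (mem_univ _) (by
      change (hflow g ((0 : ℝ) • fun i => c i) x.f).pt ∈ _
      rw [zero_smul, hflow_zero, ← hpx]
      exact ha)
    have h8 := (hasFDerivAt_fst (𝕜 := ℝ) (E := EV n) (F := Fin n → EV n)
      (p := chF a (hflow g ((0 : ℝ) • fun i => c i) x.f).1)).comp_hasDerivAt (0 : ℝ) h7
    have h9 : (hflow g ((0 : ℝ) • fun i => c i) x.f) = x.f := by
      rw [zero_smul, hflow_zero]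
    have h11 : HasDerivAt (fun t : ℝ => (chF a (hflow g (t • fun i => c i) x.f).1).1)
        (hF ((mt g).coef a) (fun i => c i)
          (chF a (hflow g ((0 : ℝ) • fun i => c i) x.f).1)).1 0 := h8
    rw [h9] at h11
    exact h11
  have h10 : ((fun z => chartAt (EV n) a ((sys g h).e m z)) ∘
      fun t : ℝ => Exp ((sys g h).cov m) x (t • c)) =
      fun t : ℝ => (chF a (hflow g (t • fun i => c i) x.f).1).1 := h4
  rw [h10] at h3
  exact h3.unique h6

/-- smoothness of the linear maps of the frames along plots -/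
theorem EX_plot {E : Type} [NormedAddCommGroup E] [NormedSpace ℝ E] [FiniteDimensional ℝ E]
    {u : E → XM h m} {y : E} (hu : (difX g ((sys g h).e m)).At u y) :
    Sm (fun z => EX h m (u z)) y :=
  SmOn.fderiv_plot (smOn_Exp (locDif_e h m) ((sys g h).cov m)) hu (Sm.const (0 : EV n) y)
    (mem_univ _)

theorem continuous_EX : Continuous fun x : XM h m => EX h m x :=
  continuous_of_map (D := difX g ((sys g h).e m)) (D' := Dif.lin (EV n →L[ℝ] EV n))
    (sec_difX (locDif_e h m)) (fun h => Sm.continuousAt h) (fun hu => EX_plot h m hu)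

/-- the frame is determined by its linear map -/
theorem EX_ext {x y : XM h m} (hq : x.q = y.q) (hE : EX h m x = EX h m y) : x = y := by
  set a := x.f.pt with ha
  have hpx : (sys g h).e m x.q = x.f.pt := PB.e_q x
  have hpy : (sys g h).e m y.q = y.f.pt := PB.e_q y
  have ha0 : x.f.pt ∈ (chartAt (EV n) a).source := mem_chart_source _ _
  have ha1 : y.f.pt ∈ (chartAt (EV n) a).source := by
    rw [← hpy, ← hq, hpx]
    exact ha0
  have h1 : chF a x.f.1 = chF a y.f.1 := by
    refine Prod.ext ?_ ?_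
    · rw [chF_fst, chF_fst, ← hpx, ← hpy, hq]
    · funext i
      have h2 := EX_chart h m x (EuclideanSpace.single i (1 : ℝ)) (a := a) (by
        rw [hpx]
        exact ha0)
      have h3 := EX_chart h m y (EuclideanSpace.single i (1 : ℝ)) (a := a) (by
        rw [hpy]
        exact ha1)
      have hs : ∀ v : Fin n → EV n, ∑ j, (EuclideanSpace.single i (1 : ℝ)) j • v j = v i := by
        intro v
        simp [EuclideanSpace.single_apply]
      rw [hs] at h2 h3
      rw [← h2, ← h3, hq, hE]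
  refine PB.ext hq ?_
  rw [← invF_chF g a x.f ha0, ← invF_chF g a y.f ha1, h1]

/-- a map into the frames is a plot if its foot point and its linear map are smooth -/
theorem plot_of {E : Type} [NormedAddCommGroup E] [NormedSpace ℝ E] [FiniteDimensional ℝ E]
    {u : E → XM h m} {y : E} (h1 : Sm (fun z => (u z).q) y)
    (h2 : Sm (fun z => EX h m (u z)) y) : (difX g ((sys g h).e m)).At u y := by
  refine ⟨h1, ?_⟩
  set a := (u y).f.pt with ha
  have hp := locDif_e h m
  have hpu : ∀ z, (sys g h).e m (u z).q = (u z).f.pt := fun z => PB.e_q (u z)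
  have ha0 : (u y).f.pt ∈ (chartAt (EV n) a).source := mem_chart_source _ _
  have ha1 : (sys g h).e m (u y).q ∈ (chartAt (EV n) a).source := by
    rw [hpu]
    exact ha0
  have hs : ∀ (i : Fin n) (v : Fin n → EV n),
      ∑ j, (EuclideanSpace.single i (1 : ℝ)) j • v j = v i := by
    intro i v
    simp [EuclideanSpace.single_apply]
  have hev : ∀ᶠ z in 𝓝 y, (sys g h).e m (u z).q ∈ (chartAt (EV n) a).source :=
    (hp.cont.continuousAt.comp h1.continuousAt).eventually
      ((chartAt (EV n) a).open_source.mem_nhds ha1)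
  have h3 : Sm (fun z => ((chartAt (EV n) a ((sys g h).e m (u z).q),
      fun i => fderiv ℝ (fun w => chartAt (EV n) a ((sys g h).e m w)) (u z).q
        (EX h m (u z) (EuclideanSpace.single i (1 : ℝ)))) : St (Fin n) n)) y := by
    refine Sm.prodMk ?_ ?_
    · exact Sm.comp (f := fun w => chartAt (EV n) a ((sys g h).e m w)) (g := fun z => (u z).q)
        (hp.sm ha1) h1
    · refine Sm.pi fun i => ?_
      have h4 : Sm (fun z => fderiv ℝ (fun w => chartAt (EV n) a ((sys g h).e m w)) (u z).q) y :=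
        Sm.comp (f := fderiv ℝ (fun w => chartAt (EV n) a ((sys g h).e m w)))
          (g := fun z => (u z).q) (hp.sm ha1).fderiv h1
      filter_upwards [h4, h2] with z hz1 hz2
      exact hz1.clm_apply (hz2.clm_apply contDiffAt_const)
  have h5 : (fun z => ((chartAt (EV n) a ((sys g h).e m (u z).q),
      fun i => fderiv ℝ (fun w => chartAt (EV n) a ((sys g h).e m w)) (u z).q
        (EX h m (u z) (EuclideanSpace.single i (1 : ℝ)))) : St (Fin n) n)) =ᶠ[𝓝 y]
      fun z => chF a (u z).f.1 := by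
    filter_upwards [hev] with z hz
    refine Prod.ext ?_ ?_
    · rw [chF_fst, hpu]
    · funext i
      change fderiv ℝ (fun w => chartAt (EV n) a ((sys g h).e m w)) (u z).q
        (EX h m (u z) (EuclideanSpace.single i (1 : ℝ))) = _
      rw [EX_chart h m (u z) _ hz, hs]
  have h6 : Sm (fun z => chF a (u z).f.1) y := h3.congr h5
  have h7 : (frSys g).dif.At
      (fun z => invF g a (gsSt ((mt g).coef a) (chF a (u z).f.1))) y :=
    (frSys g).dif.comp (u := fun z => invF g a (gsSt ((mt g).coef a) z))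
      (g := fun z => chF a (u z).f.1) (at_retr a (mem_gsDom_chF a (u y).f ha0)) h6
  refine (frSys g).dif.congr h7 ?_
  filter_upwards [hev] with z hz
  rw [hpu] at hz
  exact retr_chF a (u z).f hz

theorem plot_iff {E : Type} [NormedAddCommGroup E] [NormedSpace ℝ E] [FiniteDimensional ℝ E]
    {u : E → XM h m} {y : E} : (difX g ((sys g h).e m)).At u y ↔
      Sm (fun z => (u z).q) y ∧ Sm (fun z => EX h m (u z)) y :=
  ⟨fun hu => ⟨hu.1, EX_plot h m hu⟩, fun hu => plot_of h m hu.1 hu.2⟩

/-! ### rotations and deck transformations -/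

theorem Exp_rot (B : Fr.On n) {A : EV n →L[ℝ] EV n}
    (hA : ∀ u : EV n, (fun i => A u i) = B.1.mulVec fun i => u i) (x : XM h m) (u : EV n) :
    Exp ((sys g h).cov m) (XF.rot B x) u = Exp ((sys g h).cov m) x (A u) := by
  rw [Exp, lift_rot, XF.q_rot, ← hA u, Exp]

theorem EX_rot (B : Fr.On n) {A : EV n →L[ℝ] EV n}
    (hA : ∀ u : EV n, (fun i => A u i) = B.1.mulVec fun i => u i) (x : XM h m) :
    EX h m (XF.rot B x) = (EX h m x).comp A := by
  have h1 : Exp ((sys g h).cov m) (XF.rot B x) = fun u => Exp ((sys g h).cov m) x (A u) :=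
    funext fun u => Exp_rot h m B hA x u
  have h2 : HasFDerivAt (Exp ((sys g h).cov m) x) (EX h m x) (A 0) := by
    rw [map_zero]
    exact hasFDerivAt_EX h m x
  have h3 : HasFDerivAt (fun u => Exp ((sys g h).cov m) x (A u)) ((EX h m x).comp A) 0 :=
    HasFDerivAt.comp (g := Exp ((sys g h).cov m) x) (0 : EV n) h2 A.hasFDerivAt
  rw [EX, h1]
  exact h3.fderiv

/-- the linear map of an orthogonal matrix -/
def mvL (B : Fr.On n) : EV n →L[ℝ] EV n :=
  ((WithLp.linearEquiv 2 ℝ (Fin n → ℝ)).symm.toLinearMap ∘ₗ B.1.mulVecLin ∘ₗ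
    (WithLp.linearEquiv 2 ℝ (Fin n → ℝ)).toLinearMap).toContinuousLinearMap

theorem mvL_apply (B : Fr.On n) (u : EV n) : (fun i => mvL B u i) = B.1.mulVec fun i => u i := rfl

theorem fderiv_deck (γ : Deck ((sys g h).e m)) (q : EV n) :
    HasFDerivAt (fun q : EV n => γ • q) (fderiv ℝ (fun q : EV n => γ • q) q) q :=
  ((contDiff_deck (locDif_e h m) γ).differentiable (by simp) q).hasFDerivAt

theorem EX_deck (γ : Deck ((sys g h).e m)) (x : XM h m) :
    EX h m (γ • x) = (fderiv ℝ (fun q : EV n => γ • q) x.q).comp (EX h m x) := by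
  have h1 : Exp ((sys g h).cov m) (γ • x) = fun u => γ • Exp ((sys g h).cov m) x u :=
    funext fun u => Exp_deck ((sys g h).cov m) γ x u
  have h2 : HasFDerivAt (fun q : EV n => γ • q) (fderiv ℝ (fun q : EV n => γ • q) x.q)
      (Exp ((sys g h).cov m) x 0) := by
    rw [Exp_zero]
    exact fderiv_deck h m γ x.q
  have h3 := HasFDerivAt.comp (0 : EV n) h2 (hasFDerivAt_EX h m x)
  rw [EX, h1]
  exact h3.fderiv

/-! ### the geodesic flow in the coordinates of the covering space -/

theorem exists_frX (q : EV n) : ∃ x : XM h m, x.q = q := by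
  obtain ⟨f, hf⟩ := exists_frame g ((sys g h).e m q)
  exact ⟨PB.mk q f hf.symm, rfl⟩

/-- geodesics depend only on the initial vector -/
theorem Exp_eq_of_EX {x y : XM h m} (hq : x.q = y.q) {ξ η : EV n}
    (hE : EX h m x ξ = EX h m y η) (s : ℝ) :
    Exp ((sys g h).cov m) x (s • ξ) = Exp ((sys g h).cov m) y (s • η) := by
  obtain ⟨B, rfl⟩ := XF.exists_rot hq
  rw [EX_rot h m B (mvL_apply B) x] at hE
  have h1 : ξ = mvL B η := EX_injective h m x hE
  rw [Exp_rot h m B (mvL_apply B), map_smul, h1]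

/-- the geodesic flow, position -/
def gf (z : EV n × EV n × ℝ) : EV n :=
  Exp ((sys g h).cov m) (exists_frX h m z.1).choose
    (z.2.2 • (EXe h m (exists_frX h m z.1).choose).symm z.2.1)

theorem gf_EX (x : XM h m) (ξ : EV n) (s : ℝ) :
    gf h m (x.q, EX h m x ξ, s) = Exp ((sys g h).cov m) x (s • ξ) := by
  refine Exp_eq_of_EX h m (exists_frX h m x.q).choose_spec ?_ s
  rw [← EXe_apply, ContinuousLinearEquiv.apply_symm_apply]

theorem gf_of_inverse (x : XM h m) (v : EV n) (s : ℝ) :
    gf h m (x.q, v, s) = Exp ((sys g h).cov m) x (s • (EX h m x).inverse v) := by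
  obtain ⟨ξ, rfl⟩ := EX_surjective h m x v
  rw [gf_EX]
  congr 2
  rw [← coe_EXe, ContinuousLinearMap.inverse_equiv]
  exact ((EXe h m x).symm_apply_apply ξ).symm

/-- **the geodesic flow is smooth** -/
theorem contDiff_gf : ContDiff ℝ ∞ (gf h m) := by
  rw [contDiff_iff_contDiffAt]
  rintro ⟨q₀, v₀, s₀⟩
  obtain ⟨x₀, rfl⟩ := exists_frX h m q₀
  obtain ⟨σ, h1, h2, h3⟩ := exists_secq (locDif_e h m) x₀
  have hfst : Sm (fun z : EV n × EV n × ℝ => z.1) (x₀.q, v₀, s₀) :=
    Sm.of_contDiff contDiff_fst _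
  have h4 : (difX g ((sys g h).e m)).At (fun z : EV n × EV n × ℝ => σ z.1) (x₀.q, v₀, s₀) :=
    (difX g ((sys g h).e m)).comp (u := σ) (g := fun z : EV n × EV n × ℝ => z.1)
      (x := ((x₀.q, v₀, s₀) : EV n × EV n × ℝ)) h1 hfst
  have h5 : Sm (fun z : EV n × EV n × ℝ => (EX h m (σ z.1)).inverse) (x₀.q, v₀, s₀) := by
    filter_upwards [EX_plot h m h4] with z hz
    have h6 : ContDiffAt ℝ ∞ (ContinuousLinearMap.inverse : (EV n →L[ℝ] EV n) → _)
        (EX h m (σ z.1)) := by
      rw [← coe_EXe]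
      exact contDiffAt_map_inverse (EXe h m (σ z.1))
    exact ContDiffAt.comp (g := ContinuousLinearMap.inverse)
      (f := fun z : EV n × EV n × ℝ => EX h m (σ z.1)) z h6 hz
  have h7 : Sm (fun z : EV n × EV n × ℝ => z.2.2 • (EX h m (σ z.1)).inverse z.2.1)
      (x₀.q, v₀, s₀) := by
    filter_upwards [h5] with z hz
    have h10 : ContDiffAt ℝ ∞ (fun z : EV n × EV n × ℝ => z.2.2) z :=
      (contDiff_snd.comp contDiff_snd).contDiffAt
    have h11 : ContDiffAt ℝ ∞ (fun z : EV n × EV n × ℝ => z.2.1) z :=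
      (contDiff_fst.comp contDiff_snd).contDiffAt
    exact h10.smul (hz.clm_apply h11)
  have h8 : Sm (fun z : EV n × EV n × ℝ => Exp ((sys g h).cov m) (σ z.1)
      (z.2.2 • (EX h m (σ z.1)).inverse z.2.1)) (x₀.q, v₀, s₀) :=
    smOn_Exp (locDif_e h m) ((sys g h).cov m) h4 h7 (mem_univ _)
  refine h8.contDiffAt.congr_of_eventuallyEq ?_
  have h9 : ∀ᶠ z : EV n × EV n × ℝ in 𝓝 (x₀.q, v₀, s₀), (σ z.1).q = z.1 :=
    hfst.continuousAt.eventually h3
  filter_upwards [h9] with z hz
  have h10 := gf_of_inverse h m (σ z.1) z.2.1 z.2.2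
  rw [hz] at h10
  exact h10

/-- the geodesic flow, velocity -/
def gv (z : EV n × EV n × ℝ) : EV n := deriv (fun s => gf h m (z.1, z.2.1, s)) z.2.2

theorem gv_EX (x : XM h m) (ξ : EV n) (s : ℝ) : gv h m (x.q, EX h m x ξ, s) =
    EX h m (lift ((sys g h).cov m) (s • fun i => ξ i) x) ξ := by
  have h1 : (fun s => gf h m (x.q, EX h m x ξ, s)) =
      fun s : ℝ => (lift ((sys g h).cov m) (s • fun i => ξ i) x).q := by
    funext s
    rw [gf_EX, Exp, coe_smul]
  change deriv (fun s => gf h m (x.q, EX h m x ξ, s)) s = _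
  rw [h1]
  exact (hasDerivAt_lift h m x ξ s).deriv

theorem hasDerivAt_gf (q v : EV n) (s : ℝ) :
    HasDerivAt (fun s => gf h m (q, v, s)) (gv h m (q, v, s)) s := by
  have h1 : ContDiff ℝ ∞ fun s : ℝ => gf h m (q, v, s) :=
    (contDiff_gf h m).comp (contDiff_const.prodMk (contDiff_const.prodMk contDiff_id))
  exact (h1.differentiable (by simp) s).hasDerivAt

theorem contDiff_gv : ContDiff ℝ ∞ (gv h m) := by
  have h1 : gv h m = fun z : EV n × EV n × ℝ => fderiv ℝ (gf h m) z (0, 0, 1) := by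
    funext z
    have h2 : HasFDerivAt (gf h m) (fderiv ℝ (gf h m) z) z :=
      ((contDiff_gf h m).differentiable (by simp) z).hasFDerivAt
    have h3 : HasDerivAt (fun s : ℝ => ((z.1, z.2.1, s) : EV n × EV n × ℝ)) (0, 0, 1) z.2.2 :=
      (hasDerivAt_const _ _).prodMk ((hasDerivAt_const _ _).prodMk (hasDerivAt_id _))
    exact (HasFDerivAt.comp_hasDerivAt (l := gf h m) z.2.2 h2 h3).deriv
  rw [h1]
  have h4 : ContDiff ℝ ∞ (fderiv ℝ (gf h m)) := (contDiff_gf h m).fderiv_right (by simp)
  exact h4.clm_apply contDiff_const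

/-- the flow law -/
theorem gf_add (q v : EV n) (s t : ℝ) : gf h m (q, v, s + t) =
    gf h m (gf h m (q, v, t), gv h m (q, v, t), s) := by
  obtain ⟨x, rfl⟩ := exists_frX h m q
  obtain ⟨ξ, rfl⟩ := EX_surjective h m x v
  rw [gv_EX]
  have h1 : gf h m (x.q, EX h m x ξ, t) =
      (lift ((sys g h).cov m) (t • fun i => ξ i) x).q := by
    rw [gf_EX, Exp, coe_smul]
  rw [h1, gf_EX, gf_EX, Exp, Exp, coe_smul, coe_smul, lift_add]

theorem gv_add (q v : EV n) (s t : ℝ) : gv h m (q, v, s + t) =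
    gv h m (gf h m (q, v, t), gv h m (q, v, t), s) := by
  obtain ⟨x, rfl⟩ := exists_frX h m q
  obtain ⟨ξ, rfl⟩ := EX_surjective h m x v
  rw [gv_EX, gv_EX]
  have h1 : gf h m (x.q, EX h m x ξ, t) =
      (lift ((sys g h).cov m) (t • fun i => ξ i) x).q := by
    rw [gf_EX, Exp, coe_smul]
  rw [h1, gv_EX, lift_add]

theorem gf_zero (q v : EV n) : gf h m (q, v, 0) = q := by
  obtain ⟨x, rfl⟩ := exists_frX h m q
  obtain ⟨ξ, rfl⟩ := EX_surjective h m x v
  rw [gf_EX, zero_smul, Exp_zero]

theorem gv_zero (q v : EV n) : gv h m (q, v, 0) = v := by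
  obtain ⟨x, rfl⟩ := exists_frX h m q
  obtain ⟨ξ, rfl⟩ := EX_surjective h m x v
  rw [gv_EX, zero_smul, lift_zero]

end Vale.Agent.P207.N4.H566
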